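import Vale.Agent.P181.DU8.MainU
import Vale.Agent.P181.SV.Defs

set_option autoImplicit false

/-!
# P181, SV, V2: the assembly `AsmN`
-/

namespace Vale.Agent.P181.SV.H351

open MvPolynomial
open Vale.Agent.P181.T4 (HW ex low ex_of_lt ex_anti low_anti)
open Vale.Agent.P181.H280 (plethMult hwSpace)
open Vale.Agent.P181.H463 (gt)
open Vale.Agent.P181.H503 (gt_congr ex_low)
open Vale.Agent.P181.SZ
open Vale.Agent.P181.PL (PieS dn)
open Vale.Agent.P181.PL5 (gt_branch ex_val)
open Vale.Agent.P181.DG Vale.Agent.P181.DU Vale.Agent.P181.DU.S317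
open Vale.Agent.P181.DG8 (mem_KT card_KT tel sum_pairs dn_one disG markedR)
open Vale.Agent.P181.DU8

/-- the weight with `s` areas -/
def wt {m : ℕ} (mu : Fin m → ℕ) (s : ℕ) : Fin m → ℕ :=
  fun i => mu i + if (i : ℕ) < 2 then 2 * s else 0

/-- `AreaT` once, graded -/
lemma area_one (hMono : MonoT) (hAr : AreaT) {m S : ℕ} (hS : 3 ≤ S) (hm : 2 ≤ m)
    (mu : Fin m → ℕ) (kap : Multiset ℕ) (s t : ℕ) (ht : 1 ≤ t) :
    NT m S (wt mu s) kap t - NT m S (wt mu s) kap (t - 1) ≤
      NT m S (wt mu (s + 1)) kap (t + 3) - NT m S (wt mu (s + 1)) kap (t + 3 - 1) := by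
  obtain ⟨r, rfl⟩ : ∃ r, t = r + 1 := ⟨t - 1, by omega⟩
  have h1 := hAr m S (wt mu s) (wt mu (s + 1)) kap r hS hm (fun i => by
    unfold wt
    split_ifs
    · ring
    · rfl)
  have h2 := hMono m S (wt mu s) kap r (by omega)
  have h3 := hMono m S (wt mu (s + 1)) kap (r + 3) (by omega)
  have e1 : r + 1 - 1 = r := by omega
  have e2 : r + 1 + 3 - 1 = r + 3 := by omega
  have e3 : r + 1 + 3 = r + 4 := by omega
  have e4 : r + 3 + 1 = r + 4 := by omega
  rw [e4] at h3
  rw [e1, e2, e3]
  omega

/-- `AreaT` `s` times, graded -/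
lemma area_many (hMono : MonoT) (hAr : AreaT) {m S : ℕ} (hS : 3 ≤ S) (hm : 2 ≤ m)
    (mu : Fin m → ℕ) (kap : Multiset ℕ) (s t : ℕ) (ht : 1 ≤ t) :
    NT m S mu kap t - NT m S mu kap (t - 1) ≤
      NT m S (wt mu s) kap (t + 3 * s) - NT m S (wt mu s) kap (t + 3 * s - 1) := by
  induction s with
  | zero =>
    have e : wt mu 0 = mu := by
      funext i
      unfold wt
      simp
    rw [e]
    simp
  | succ s ih =>
    refine ih.trans ?_
    have h1 := area_one hMono hAr hS hm mu kap s (t + 3 * s) (by omega)
    have e1 : t + 3 * (s + 1) = t + 3 * s + 3 := by ring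
    rw [e1]
    exact h1

open scoped Classical in
/-- the marks: from the letter `y` of the weight `muP` to the good states `({t}, a)` -/
lemma core_markN (hMono : MonoT) (hAr : AreaT) (hDis : DisT) {m S w a b J y h t1 : ℕ}
    (muP mu : Fin m → ℕ) (hmu : wt muP h = mu) (hS : 4 ≤ S) (hm : 2 ≤ m)
    (ht1 : t1 + 3 * h + 3 ≤ a) (hya : y ≤ a) (hyS : a + S ≤ y + 3 * h) (haw : a ≤ w)
    (hab : a + 1 ≤ b) :
    ∑ t ∈ Finset.Ioc J t1, (NT m S muP {y} t - NT m S muP {y} (t - 1)) ≤
      ∑ p ∈ (KT w S ×ˢ Finset.range (a + 2)).filter (GoodV a b),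
        (NT m S mu p.1 p.2 - NT m S mu p.1 (p.2 - 1)) := by
  calc ∑ t ∈ Finset.Ioc J t1, (NT m S muP {y} t - NT m S muP {y} (t - 1))
      ≤ ∑ t ∈ Finset.Ioc J t1, (NT m S mu {y + 3 * h + t - a} a -
          NT m S mu {y + 3 * h + t - a} (a - 1)) := by
        apply Finset.sum_le_sum
        intro t ht
        rw [Finset.mem_Ioc] at ht
        have h1 := disG hMono hDis hS muP 0 {y + 3 * h + t - a} y (a - 3 * h - t) t
          (by omega) (by omega) (Multiset.nodup_singleton _)
          (fun x hx => by
            rw [Multiset.mem_singleton] at hx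
            exact ⟨by omega, Multiset.notMem_zero _, by omega⟩)
          (by rw [Multiset.sum_singleton]; omega)
          (Or.inr ⟨by omega, by rw [Multiset.sum_singleton]; omega⟩)
        rw [add_zero] at h1
        have h2 : t + (a - 3 * h - t) = a - 3 * h := by omega
        simp only [h2] at h1
        refine le_trans h1 ?_
        have h3 := area_many hMono hAr (show 3 ≤ S by omega) hm muP {y + 3 * h + t - a} h
          (a - 3 * h) (by omega)
        have h4 : a - 3 * h + 3 * h = a := by omega
        rw [h4, hmu] at h3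
        exact h3
    _ = ∑ p ∈ (Finset.Ioc J t1).image (fun t => (({y + 3 * h + t - a} : Multiset ℕ), a)),
        (NT m S mu p.1 p.2 - NT m S mu p.1 (p.2 - 1)) := by
        rw [Finset.sum_image]
        intro t ht t' ht' h
        rw [Finset.coe_Ioc, Set.mem_Ioc] at ht ht'
        have h1 : (({y + 3 * _ + t - a} : Multiset ℕ), a) =
          (({y + 3 * _ + t' - a} : Multiset ℕ), a) := h
        rw [Prod.mk.injEq, Multiset.singleton_inj] at h1
        omega
    _ ≤ _ := by
        apply Finset.sum_le_sum_of_subset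
        intro p hp
        rw [Finset.mem_image] at hp
        obtain ⟨t, ht, rfl⟩ := hp
        rw [Finset.mem_Ioc] at ht
        rw [Finset.mem_filter, Finset.mem_product, Finset.mem_range,
          mem_KT (show 1 ≤ S by omega)]
        refine ⟨⟨⟨?_, ?_⟩, by simp only; omega⟩, ?_, ?_, ?_, ?_⟩
        · simp only [Multiset.sum_singleton]
          omega
        · intro x hx
          simp only [Multiset.mem_singleton] at hx
          omega
        · intro x hx
          simp only [Multiset.mem_singleton] at hx
          omega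
        · simp only [Multiset.card_singleton]
          omega
        · simp only
          omega
        · simp only [Multiset.card_singleton]
          omega

open scoped Classical in
/-- **(V2)** -/
theorem asmN (hAr : AreaT) (hMono : MonoT) (hUp : UpT) (hLow : LowU) (hDis : DisT)
    (hSh : ShiftT) (hFew : FewT) (hM : MarkT) (hFl : FlowW) (hU : UpperS) (hUA : UpperA)
    (hLA : LowerA) (hP : PieS) : AsmN := by
  intro a b n R X Z K w a0 b0 h y lam nu hlam hsum hpos hR3 hRn hw hZ1 hZ2 hK hKX hXZ hwX hKa
    hab hZa hbig haw3 hb0 hya hyS0 hle hst hwnu hfinal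
  obtain ⟨m, rfl⟩ : ∃ m, n = m + 1 := ⟨n - 1, by omega⟩
  have hw' : ∑ i, tl lam i = w := by rw [hw, dn_one]
  rw [dn_one] at hwnu
  obtain ⟨S, hS⟩ : ∃ S, S = (Z + 1) * X := ⟨_, rfl⟩
  have hyS : a + S ≤ y + 3 * h := by
    rw [hS]
    exact hyS0
  have hX1 : 1 ≤ X := by omega
  have hZ0 : 1 ≤ Z := by omega
  have hS1 : Z + 1 ≤ S := by
    rw [hS]
    exact Nat.le_mul_of_pos_right _ (by omega)
  have hSX : X ≤ S := by
    rw [hS]
    exact Nat.le_mul_of_pos_left _ (by omega)
  have hKS : S ≤ K * S := Nat.le_mul_of_pos_left _ (by omega)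
  have hKa' : 100 * (K * S) ≤ a := by
    rw [hS]
    calc 100 * (K * ((Z + 1) * X)) = 100 * K * ((Z + 1) * X) := by ring
      _ ≤ a := hKa
  have haw : a ≤ w := by omega
  have hS2 : (Z + 1) * 4 ≤ S := by
    rw [hS]
    exact Nat.mul_le_mul_left _ (by omega)
  have ha1 : 1 ≤ a := by omega
  have hS4 : 4 ≤ S := by omega
  -- `a < b`
  have hab' : a + 1 ≤ b := by omega
  -- the size of the contents
  have hcard : ∀ k ∈ KT w S, 3 * Multiset.card k + 1 ≤ Z := by
    intro k hk
    have h1 := card_KT (by omega) hk
    have h2 : Multiset.card k * X < Z + 1 := by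
      by_contra h
      have h3 : (Z + 1) * (Z + 1) ≤ (Z + 1) * (Multiset.card k * X) :=
        Nat.mul_le_mul_left _ (by omega)
      have h4 : (Z + 1) * (Multiset.card k * X) = Multiset.card k * S := by rw [hS]; ring
      have h5 : (Z + 1) ^ 2 = (Z + 1) * (Z + 1) := sq _
      omega
    have h3 : Multiset.card k * 32 ≤ Multiset.card k * X := Nat.mul_le_mul_left _ (by omega)
    omega
  -- `J`
  have e1 : Z * X ^ 2 = Z * X * X := by ring
  have e2 : Z * X * (16 * K + 16) ≤ Z * X * X := Nat.mul_le_mul_left _ hKX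
  have e3 : Z * X * (16 * K + 16) = 16 * (K * (Z * X)) + 16 * (Z * X) := by ring
  have e4 : K * S = K * (Z * X) + K * X := by rw [hS]; ring
  have e4' : S = Z * X + X := by rw [hS]; ring
  have e5 : K * X ≤ K * (Z * X) := Nat.mul_le_mul_left _ (Nat.le_mul_of_pos_left _ hZ0)
  have e5' : X ≤ Z * X := Nat.le_mul_of_pos_left _ hZ0
  have e6 : 1 ≤ Z * X := Nat.mul_pos hZ0 hX1
  have e7 : (2 * (3 * K) + 3) * S = 6 * (K * S) + 3 * S := by ring
  obtain ⟨J, hJ, hJ1, hJ2⟩ : ∃ J, ((m + 1 ≤ Z * X ^ 2 → J = Z * X ^ 2) ∧
      (¬ m + 1 ≤ Z * X ^ 2 → J + 1 = Z * X ^ 2)) ∧ J ≤ Z * X ^ 2 ∧ Z * X ^ 2 ≤ J + 1 := by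
    by_cases h : m + 1 ≤ Z * X ^ 2
    · exact ⟨Z * X ^ 2, ⟨fun _ => rfl, fun h' => absurd h h'⟩, le_rfl, by omega⟩
    · exact ⟨Z * X ^ 2 - 1, ⟨fun h' => absurd h' h, fun _ => by omega⟩, by omega, by omega⟩
  have hSJ : S ≤ J := by omega
  have hZJ : Z ≤ J := by omega
  -- the functions
  obtain ⟨N, hN⟩ : ∃ N : Multiset ℕ → ℕ → ℕ, N = NT m S (tl lam) := ⟨_, rfl⟩
  have hNm : ∀ k t, N k t ≤ N k (t + 1) := fun k t => by
    rw [hN]
    exact hMono m S (tl lam) k t (by omega)
  have hDG : DisG S fun k t => N k t - N k (t - 1) := by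
    rw [hN]
    exact disG hMono hDis hS4 (tl lam)
  have hup := (hUA a b m lam).trans (hUp a b m S (tl lam) (by omega))
  -- low degree
  have hdeg : 2 * ∑ i, tl lam i ≤ b * (S - 1) := by
    rw [hw']
    have g1 : (Z + 1) ^ 2 = (Z + 1) * (Z + 1) := sq _
    have g2 : 2 * (Z + 1) * (Z + 1) ≤ b * (S - 1) := Nat.mul_le_mul (by omega) (by omega)
    have g3 : 2 * (Z + 1) * (Z + 1) = 2 * ((Z + 1) * (Z + 1)) := by ring
    omega
  have hSG : ShG fun k t => N k t - N k (t - 1) := by
    rw [hN]
    exact shG hMono hSh (by omega) (tl lam)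
  have hlow := (hLow a b m S (tl lam) (by omega) (by omega) hdeg).trans (hLA a b m lam hsum)
  have hfew := hFew m S J (tl lam) (by omega)
  rw [hw', ← hN] at hup hlow hfew
  have hc1 : ∀ k ∈ KT w S, Multiset.card k ≤ a := by
    intro k hk
    have := hcard k hk
    omega
  have hc2 : ∀ k ∈ KT w S, Multiset.card k ≤ J := by
    intro k hk
    have := hcard k hk
    omega
  have h1 := core_low (b := b) hNm (by omega) hc1
  have h2 := core_upW (b := b) hNm (show J ≤ a by omega) hc2
  have h3 := hFl (fun k t => N k t - N k (t - 1)) a b (J + 1) S (3 * K) X w hDG hSG (by omega)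
    hS4 (by omega) (by
      rw [hS, mul_pow]
      exact Nat.mul_le_mul_right _ hZ2.le) (by
      have f1 : X ^ (3 * K) = (X ^ K) ^ 3 := by rw [mul_comm, pow_mul]
      have f2 : (4 * w) ^ 3 ≤ (X ^ K) ^ 3 := Nat.pow_le_pow_left hwX 3
      have f3 : (w + 1) * (a + 2) ^ 2 ≤ (2 * w) * w ^ 2 :=
        Nat.mul_le_mul (by omega) (Nat.pow_le_pow_left (by omega) 2)
      have f5 : (4 * w) ^ 3 = 64 * (w * w * w) := by ring
      have f6 : (2 * w) * w ^ 2 = 2 * (w * w * w) := by ring
      rw [f1]
      omega) (by omega) (by omega) (by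
      have f1 : (16 * ((Z + 1) * X)) ^ 2 ≤ a ^ 2 := by
        apply Nat.pow_le_pow_left
        rw [← hS]
        omega
      have f2 : 16 * (w * X) ≤ (16 * ((Z + 1) * X)) ^ 2 := by
        calc 16 * (w * X) ≤ 256 * ((Z + 1) ^ 2 * X ^ 2) := by
              apply Nat.mul_le_mul (by norm_num)
              exact Nat.mul_le_mul hZ2.le (Nat.le_self_pow (by norm_num) X)
          _ = (16 * ((Z + 1) * X)) ^ 2 := by ring
      exact f2.trans f1) (by omega)
  have hGW : GoodW = GoodV := rfl
  rw [hGW] at h3
  set Good := ∑ p ∈ (KT w S ×ˢ Finset.range (a + 2)).filter (GoodV a b),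
    (N p.1 p.2 - N p.1 (p.2 - 1)) with hGood
  set Bad := ∑ p ∈ (KT w S ×ˢ Finset.range (a + 2)).filter (BadW a b (J + 1)),
    (N p.1 p.2 - N p.1 (p.2 - 1)) with hBad
  set Few := ∑ k ∈ (KT w S).filter (fun k => Multiset.card k ≤ J), N k (J - Multiset.card k)
    with hFewdef
  set A0 := ∑ k ∈ (KT w S).filter (fun k => ∀ x ∈ k, x ≤ a), N k (a - Multiset.card k)
    with hA0
  have h3' : 3 * Bad ≤ Good := h3
  -- the few letters against the good states
  have hfg : 2 * Few ≤ Good := by
    by_cases hnJ : m + 1 ≤ Z * X ^ 2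
    · have hJe := hJ.1 hnJ
      have hbig' := hfinal hnJ
      -- the weight without the areas
      have hle2 : ∀ i : Fin m, (i : ℕ) < 2 → 2 * h ≤ tl lam i := by
        intro i hi
        have g1 := hle i.succ (by simp)
        rw [if_pos (by rw [Fin.val_succ]; omega)] at g1
        exact (Nat.le_add_left _ _).trans g1
      obtain ⟨muP, hmuP⟩ : ∃ muP : Fin m → ℕ,
          muP = fun i => tl lam i - if (i : ℕ) < 2 then 2 * h else 0 := ⟨_, rfl⟩
      have hmu : wt muP h = tl lam := by
        funext i
        unfold wt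
        rw [hmuP]
        simp only
        split_ifs with hi
        · exact Nat.sub_add_cancel (hle2 i hi)
        · rfl
      have hmui : ∀ i : Fin m, muP i + (if (i : ℕ) < 2 then 2 * h else 0) = tl lam i := by
        intro i
        exact congrFun hmu i
      have hle' : ∀ i : Fin m, tl nu i ≤ muP i := by
        intro i
        have g1 := hle i.succ (by simp)
        have g2 := hmui i
        rw [Fin.val_succ] at g1
        have g3 : tl nu i = nu i.succ := rfl
        have g4 : tl lam i = lam i.succ := rfl
        by_cases hi : (i : ℕ) < 2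
        · rw [if_pos hi] at g2
          rw [if_pos (by omega)] at g1
          omega
        · rw [if_neg hi] at g2
          rw [if_neg (by omega)] at g1
          omega
      have hst' : ∀ i : Fin m, ex muP ((i : ℕ) + 1) ≤ tl nu i := by
        intro i
        by_cases hi1 : (i : ℕ) + 1 < m
        · have g1 := hst i.succ (by simp)
          have g2 := hmui ⟨(i : ℕ) + 1, hi1⟩
          rw [Fin.val_succ, ← ex_tl] at g1
          rw [ex_of_lt _ hi1] at g1
          rw [ex_of_lt _ hi1]
          have g3 : tl nu i = nu i.succ := rfl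
          simp only at g2
          by_cases hi : (i : ℕ) + 1 < 2
          · rw [if_pos hi] at g1 g2
            omega
          · rw [if_neg hi] at g1 g2
            omega
        · have g1 : ex muP ((i : ℕ) + 1) = 0 := by
            unfold ex
            rw [dif_neg hi1]
          rw [g1]
          exact Nat.zero_le _
      have hmuPanti : Antitone muP := by
        intro i j hij
        rcases eq_or_lt_of_le hij with rfl | hij'
        · exact le_rfl
        have hij2 : (i : ℕ) < (j : ℕ) := hij'
        have g1 := hmui i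
        have g2 := hmui j
        have g3 : tl lam j ≤ tl lam i := tl_anti hlam hij
        by_cases hi : (i : ℕ) < 2
        · by_cases hj : (j : ℕ) < 2
          · rw [if_pos hi] at g1
            rw [if_pos hj] at g2
            omega
          · -- `muP j ≤ ex muP (i + 1) ≤ nu ≤ muP i`
            have hi1 : (i : ℕ) + 1 < m := by
              have := j.2
              omega
            have g5 : tl lam j ≤ tl lam ⟨2, by have := j.2; omega⟩ :=
              tl_anti hlam (Fin.mk_le_of_le_val (by omega))
            have g6 : ex (tl lam) 2 ≤ tl nu ⟨1, by have := j.2; omega⟩ := by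
              have g7 := hst ((⟨1, by have := j.2; omega⟩ : Fin m).succ) (by simp)
              rw [Fin.val_succ, ← ex_tl, if_neg (by simp), add_zero] at g7
              exact g7
            rw [ex_of_lt _ (show 2 < m by have := j.2; omega)] at g6
            have g8 := hle' ⟨1, by have := j.2; omega⟩
            have g9 := hmui ⟨1, by have := j.2; omega⟩
            rw [if_pos (by simp)] at g9
            have g10 : tl lam ⟨1, by have := j.2; omega⟩ ≤ tl lam i :=
              tl_anti hlam (Fin.le_def.2 (by simp only; omega))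
            rw [if_pos hi] at g1
            rw [if_neg hj] at g2
            omega
        · rw [if_neg hi] at g1
          rw [if_neg (by omega)] at g2
          omega
      have hsumP : ∑ i, muP i + 4 * h = w := by
        rw [← hw', ← hmu]
        unfold wt
        rw [Finset.sum_add_distrib]
        congr 1
        have hm2 : ∃ k, m = k + 2 := ⟨m - 2, by omega⟩
        obtain ⟨k, rfl⟩ := hm2
        rw [Fin.sum_univ_succ, Fin.sum_univ_succ]
        have g1 : ∑ i : Fin k, (if ((i.succ.succ : Fin (k + 2)) : ℕ) < 2 then 2 * h else 0) = 0 := by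
          apply Finset.sum_eq_zero
          intro i _
          rw [if_neg]
          simp
        rw [g1]
        simp
        ring
      have hwP : w - 4 * h = ∑ i, tl nu i + y := by omega
      have hmark := markedR (b0 := b0) hU hP hM (m := m) (S := S) (a0 := a0) (w := w - 4 * h)
        (a := y) (lam := Fin.cons 0 muP) (nu := nu) hS4 (by
          by_contra h
          have g1 : S * S ≤ a0 * (a0 + 2) := Nat.mul_le_mul (by omega) (by omega)
          have g2 : (Z + 1) * (Z + 1) ≤ S * S := Nat.mul_le_mul hS1 hS1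
          have g3 : (Z + 1) ^ 2 = (Z + 1) * (Z + 1) := sq _
          omega) (by omega) (by
            have g1 : tl (Fin.cons 0 muP : Fin (m + 1) → ℕ) = muP := rfl
            rw [g1]
            omega) hwP
        (fun i => hle' i)
        (fun i => hst' i)
      have g0 : tl (Fin.cons 0 muP : Fin (m + 1) → ℕ) = muP := rfl
      rw [g0] at hmark
      have hNPm : ∀ k t, NT m S muP k t ≤ NT m S muP k (t + 1) := fun k t =>
        hMono m S muP k t (by omega)
      have hmk : NT m S muP {y} (3 * b0) ≤ NT m S muP {y} (J - 1) + Good := by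
        by_cases hJb : J - 1 ≤ 3 * b0
        · have g1 := tel (hNPm {y}) hJb
          have g2 := core_markN hMono hAr hDis (J := J - 1) (w := w) (b := b) (t1 := 3 * b0)
            muP (tl lam) hmu hS4 (by omega) (by omega) hya hyS haw hab'
          rw [← hN] at g2
          omega
        · have g1 : NT m S muP {y} (3 * b0) ≤ NT m S muP {y} (J - 1) :=
            monotone_nat_of_le_succ (hNPm {y}) (by omega)
          omega
      have hfewP := hFew m S J muP (by omega)
      have hsumP' : ∑ i, muP i = w - 4 * h := by omega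
      rw [hsumP'] at hfewP
      have hsf : NT m S muP {y} (J - 1) ≤ Module.finrank ℂ (HW m (Fin J) muP) := by
        refine le_trans ?_ hfewP
        have g1 : ({y} : Multiset ℕ) ∈
            (KT (w - 4 * h) S).filter (fun k => Multiset.card k ≤ J) := by
          rw [Finset.mem_filter, mem_KT (by omega)]
          refine ⟨⟨?_, ?_⟩, ?_⟩
          · rw [Multiset.sum_singleton]
            omega
          · intro x hx
            rw [Multiset.mem_singleton] at hx
            omega
          · rw [Multiset.card_singleton]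
            omega
        have g2 := Finset.single_le_sum
          (f := fun k : Multiset ℕ => NT m S muP k (J - Multiset.card k))
          (fun _ _ => Nat.zero_le _) g1
        simp only [Multiset.card_singleton] at g2
        exact g2
      have hbr : gt (m + 1 - (R + 1)) (Z * X ^ 2) (low (R + 1) lam) ≤
          gt (m + 1 - R) (Z * X ^ 2 + 1) (low R nu) := by
        apply gt_branch
        · intro i hi hin
          have h1 := hst ⟨i, hin⟩ (by simp; omega)
          rw [if_neg (by simp only; omega), add_zero, ← ex_val nu ⟨i, hin⟩] at h1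
          exact h1
        · intro i hi hin
          have h1 := hle ⟨i, hin⟩ (by simp; omega)
          rw [if_neg (by simp only; omega), add_zero, ← ex_val nu ⟨i, hin⟩,
            ← ex_val lam ⟨i, hin⟩] at h1
          exact h1
      have hcut := hw_cut (J := J) (show R ≤ m by omega) (tl lam) (tl_anti hlam) w (fun i => by
        rw [← hw']
        exact Finset.single_le_sum (f := tl lam) (fun _ _ => Nat.zero_le _)
          (Finset.mem_univ i))
      have hcutP := hw_cut (J := J) (show R ≤ m by omega) muP hmuPanti w (fun i => by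
        refine le_trans (Finset.single_le_sum (f := muP) (fun _ _ => Nat.zero_le _)
          (Finset.mem_univ i)) (by omega))
      have hlowP : low R muP = low R (tl lam) := by
        funext i
        unfold low
        by_cases hi : R + (i : ℕ) < m
        · rw [ex_of_lt _ hi, ex_of_lt _ hi]
          have g1 := hmui ⟨R + (i : ℕ), hi⟩
          rw [if_neg (by simp only; omega), add_zero] at g1
          exact g1
        · unfold ex
          rw [dif_neg hi, dif_neg hi]
      have hgt : gt (m - R) J (low R (tl lam)) =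
          gt (m + 1 - (R + 1)) (Z * X ^ 2) (low (R + 1) lam) := by
        rw [hJe]
        apply gt_congr (by omega)
        intro i
        rw [ex_low, ex_low, ex_tl]
        congr 1
        omega
      rw [hlowP] at hcutP
      rw [hgt] at hcut hcutP
      have hF1 : Few ≤ (w + 1) ^ (R * J) * gt (m + 1 - R) (Z * X ^ 2 + 1) (low R nu) :=
        hfew.trans (hcut.trans (Nat.mul_le_mul_left _ hbr))
      have hF1P : NT m S muP {y} (J - 1) ≤
          (w + 1) ^ (R * J) * gt (m + 1 - R) (Z * X ^ 2 + 1) (low R nu) :=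
        hsf.trans (hcutP.trans (Nat.mul_le_mul_left _ hbr))
      have hpw : 2 * (w + 1) ^ (R * J) ≤ (w + 1) ^ ((R + 1) * (Z * X ^ 2)) := by
        rw [← hJe, add_mul, one_mul, pow_add, mul_comm]
        apply Nat.mul_le_mul_left
        calc 2 ≤ w + 1 := by omega
          _ ≤ (w + 1) ^ J := Nat.le_self_pow (by omega) _
      have hF2 : 4 * ((w + 1) ^ (R * J) * gt (m + 1 - R) (Z * X ^ 2 + 1) (low R nu)) ≤
          2 * ((w + 1) ^ ((R + 1) * (Z * X ^ 2)) *
          gt (m + 1 - R) (Z * X ^ 2 + 1) (low R nu)) := by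
        calc 4 * ((w + 1) ^ (R * J) * gt (m + 1 - R) (Z * X ^ 2 + 1) (low R nu))
            = 2 * (2 * (w + 1) ^ (R * J) * gt (m + 1 - R) (Z * X ^ 2 + 1) (low R nu)) := by ring
          _ ≤ _ := Nat.mul_le_mul_left _ (Nat.mul_le_mul_right _ hpw)
      omega
    · have hpos : ∀ i, 0 < lam i := hpos.resolve_right hnJ
      have hJe := hJ.2 hnJ
      rw [hw_zero (by omega) (tl lam) (tl_anti hlam) (fun i => hpos _)] at hfew
      omega
  have hup' : plethMult a b (m + 1) lam ≤ A0 + (Few + Bad) := le_trans (by convert hup) h2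
  have hlow' : A0 + Good ≤ plethMult b a (m + 1) lam := le_trans h1 (by convert hlow)
  omega

end Vale.Agent.P181.SV.H351
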