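import Vale.Agent.P181.SV.Defs2
import Vale.Agent.P181.SV.H351.Core

set_option autoImplicit false

/-!
# P181, SV, V3X: two long rows and a light tail, every `b > a`, the numbers
-/

namespace Vale.Agent.P181.SV.H351

open Vale.Agent.P181.T4 (ex low low_anti)
open Vale.Agent.P181.H280 (plethMult)
open Vale.Agent.P181.H463 (gt)
open Vale.Agent.P181.PL Vale.Agent.P181.PL508
open Vale.Agent.P181.SZ (LBC LBR)
open Vale.Agent.P181.SZN4 (low_bound k0_facts b0_small)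

/-- The numbers for at least five rows, some of them possibly zero. -/
lemma sliv_coreX (hA : AsmNX) (hC : LBC) (hR' : LBR) {a b n X : ℕ} {lam : Fin n → ℕ}
    (hlam : Antitone lam) (hsum : ∑ i, lam i = a * b)
    (hpos : (∀ i, 0 < lam i) ∨ n ≤ X ^ 57) (hn : 5 ≤ n)
    (h2 : 7 * a ≤ 8 * ex lam 2) (h94 : 4 * dn lam 1 ≤ 9 * a)
    (hD : X ^ 2550 * dn lam 3 ≤ a) (hXa : X ^ 20000 ≤ a)
    (hlogX : 10 ^ 12 * (1 + Real.log a) ^ 7 ≤ X) (hab : a + 1 ≤ b) :
    plethMult a b n lam ≤ plethMult b a n lam := by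
  have ha : 1 ≤ a := by
    by_contra hcon
    have h0 : a = 0 := by omega
    rw [h0] at hlogX hXa
    have hX0 : X = 0 := by
      by_contra hX
      have := Nat.one_le_pow 20000 X (by omega)
      omega
    rw [hX0] at hlogX
    norm_num at hlogX
  obtain ⟨hX, hl1, hl6, K, hK1, hK2, hK3⟩ := X_facts ha hlogX
  have hX1 : 1 ≤ X := le_trans (by norm_num) hX
  have hXp : ∀ i j, i ≤ j → X ^ i ≤ X ^ j := fun i j hij => Nat.pow_le_pow_right hX1 hij
  have hXpos : ∀ i, 1 ≤ X ^ i := fun i => Nat.one_le_pow _ _ hX1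
  have hXp1 : ∀ j, 1 ≤ j → X ≤ X ^ j := fun j hj => by
    have := hXp 1 j hj
    rwa [pow_one] at this
  have hXX : ∀ i j : ℕ, i + 1 ≤ j → 10 ^ 12 * X ^ i ≤ X ^ j := by
    intro i j hij
    refine le_trans ?_ (hXp (i + 1) j hij)
    rw [pow_succ, mul_comm]
    exact Nat.mul_le_mul_left _ hX
  have ha12 : 10 ^ 12 ≤ a := hX.trans ((hXp1 20000 (by norm_num)).trans hXa)
  -- the rows
  have e1 := dn_succ lam 1
  have e2 := dn_succ lam 2
  rw [show 1 + 1 = 2 from rfl] at e1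
  rw [show 2 + 1 = 3 from rfl] at e2
  have a21 : ex lam 2 ≤ ex lam 1 := exanti hlam (by norm_num)
  have a3D := ex_le_dn lam 3
  have hD12 : 10 ^ 12 * dn lam 3 ≤ a := by
    refine le_trans (Nat.mul_le_mul_right _ ?_) hD
    exact hX.trans (hXp1 2550 (by norm_num))
  obtain ⟨w, hwdef⟩ : ∃ w, w = dn lam 1 := ⟨_, rfl⟩
  rw [← hwdef] at h94 e1
  have hw74 : 7 * a ≤ 4 * w := by omega
  have hwa : w + 1 ≤ a ^ 2 := by
    have e3 : 4 * a ≤ a ^ 2 := by
      rw [sq]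
      exact Nat.mul_le_mul_right _ (by omega)
    omega
  -- `Z`
  obtain ⟨Z, hZ⟩ : ∃ Z, Z = Nat.sqrt w := ⟨_, rfl⟩
  have hZ1 : Z ^ 2 ≤ w := by
    rw [hZ]
    exact Nat.sqrt_le' w
  have hZ2 : w < (Z + 1) ^ 2 := by
    rw [hZ]
    exact Nat.lt_succ_sqrt' w
  clear hZ
  have hZ12 : Z * X ^ 6000 ≤ a := by
    have h2 : (Z * X ^ 6000) ^ 2 ≤ a ^ 2 := by
      calc (Z * X ^ 6000) ^ 2 = Z ^ 2 * X ^ 12000 := by ring
        _ ≤ (3 * a) * X ^ 12000 := Nat.mul_le_mul_right _ (by omega)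
        _ = a * (3 * X ^ 12000) := by ring
        _ ≤ a * X ^ 20000 := by
            apply Nat.mul_le_mul_left
            have := hXX 12000 20000 (by norm_num)
            omega
        _ ≤ a * a := Nat.mul_le_mul_left _ hXa
        _ = a ^ 2 := (sq a).symm
    exact (Nat.pow_le_pow_iff_left (by norm_num)).1 h2
  have hZX : X ^ 9999 ≤ Z := by
    by_contra hcon
    have h2 : Z + 1 ≤ X ^ 9999 := by omega
    have h3 : (Z + 1) ^ 2 ≤ (X ^ 9999) ^ 2 := Nat.pow_le_pow_left h2 2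
    have h5 : (X ^ 9999) ^ 2 ≤ X ^ 20000 := by
      rw [← pow_mul]
      exact Nat.pow_le_pow_right hX1 (by norm_num)
    omega
  have hZpos : 1 ≤ Z := (hXpos 9999).trans hZX
  have hZZ : Z ^ 2 = Z * Z := sq Z
  have hZbig : 10 ^ 12 ≤ Z := hX.trans ((hXp1 9999 (by norm_num)).trans hZX)
  have hwZ : w ≤ 2 * Z ^ 2 := by
    have e : (Z + 1) ^ 2 = Z ^ 2 + 2 * Z + 1 := by ring
    have e2 : Z * 4 ≤ Z * Z := Nat.mul_le_mul_left _ (by omega)
    rw [← hZZ] at e2
    omega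
  -- the numbers
  obtain ⟨V, hV⟩ : ∃ V, V = X ^ 58 := ⟨_, rfl⟩
  have hV12 : 10 ^ 12 ≤ V := by
    rw [hV]
    have := hXp1 58 (by norm_num)
    omega
  have hV6 : 10 ^ 6 ≤ V := by omega
  have hV20 : V ^ 20 ≤ Z := by
    rw [hV, ← pow_mul]
    exact (hXp _ _ (by norm_num)).trans hZX
  obtain ⟨hk1, hk2, hk15, hkZ, hkX, hZV⟩ := k0_facts hV6 hV20
  obtain ⟨k, hk⟩ : ∃ k, k = Z / V ^ 5 := ⟨_, rfl⟩
  rw [← hk] at hk1 hk2 hk15 hkZ hkX
  have hkpos : 0 < k := by omega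
  have hkw : w ≤ k * (w / k + 1) := by
    have h := Nat.div_add_mod w k
    have h' := Nat.mod_lt w hkpos
    have e : k * (w / k + 1) = k * (w / k) + k := by ring
    omega
  have hT : dn lam 1 + dn lam 1 ≤ 2 * k * (w / k + 1) := by
    have e : 2 * k * (w / k + 1) = 2 * (k * (w / k + 1)) := by ring
    omega
  -- the strip
  obtain ⟨S, hS⟩ : ∃ S, S = (Z + 1) * X ^ 57 := ⟨_, rfl⟩
  have hSa : 10 ^ 6 * S ≤ a := by
    rw [hS]
    calc 10 ^ 6 * ((Z + 1) * X ^ 57) ≤ 10 ^ 6 * ((2 * Z) * X ^ 57) :=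
          Nat.mul_le_mul_left _ (Nat.mul_le_mul_right _ (by omega))
      _ = Z * (2 * 10 ^ 6 * X ^ 57) := by ring
      _ ≤ Z * X ^ 6000 := by
          apply Nat.mul_le_mul_left
          have e2 := hXX 57 6000 (by norm_num)
          omega
      _ ≤ a := hZ12
  have hZV14 : 10 ^ 6 * (Z * V ^ 14) ≤ a := by
    calc 10 ^ 6 * (Z * V ^ 14) = Z * (10 ^ 6 * X ^ 812) := by
          rw [hV, ← pow_mul]
          ring
      _ ≤ Z * X ^ 6000 := by
          apply Nat.mul_le_mul_left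
          have e2 := hXX 812 6000 (by norm_num)
          omega
      _ ≤ a := hZ12
  obtain ⟨h, hh⟩ : ∃ h, h = a / 6 := ⟨_, rfl⟩
  have hh1 : 6 * h ≤ a := by omega
  have hh2 : a < 6 * h + 6 := by omega
  clear hh
  obtain ⟨y, hy⟩ : ∃ y, y + 3 * h = a + S := ⟨a + S - 3 * h, by omega⟩
  obtain ⟨nu, hnu, hnusum, hnu1, hnu2, hnu3, hn1, hn2, hnx, hnd⟩ :=
    exists_nu2 hn hlam (h := h) (y := y) (T := 2 * k * (w / k + 1)) (by omega) (by omega)
      (by omega) hT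
  have hn3 : ex nu 3 = ex lam 3 := hnx 3 le_rfl
  have hnd3 : dn nu 3 = dn lam 3 := hnd 3 le_rfl
  rw [← hwdef] at hnu3
  -- the assembly
  have hZ57 : X ^ 57 ≤ Z := (hXp _ _ (by norm_num)).trans hZX
  have hb0 : w / k + 1 + 1 + 0 * 0 ≤ Z * V ^ 8 :=
    b0_small (R := 0) (r := 0) (t := 0) hV6 (Nat.zero_le _) le_rfl (Nat.zero_le _) hk2 hkpos hwZ
      hZpos
  have hZV8 : 10 ^ 6 * (Z * V ^ 8) ≤ a := by
    calc 10 ^ 6 * (Z * V ^ 8) = Z * (10 ^ 6 * X ^ 464) := by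
          rw [hV, ← pow_mul]
          ring
      _ ≤ Z * X ^ 6000 := by
          apply Nat.mul_le_mul_left
          have e2 := hXX 464 6000 (by norm_num)
          omega
      _ ≤ a := hZ12
  have hk24 : 24 * k ^ 2 ≤ w := by
    calc 24 * k ^ 2 ≤ (V ^ 5) ^ 2 * k ^ 2 := by
          apply Nat.mul_le_mul_right
          have e1 : V ≤ V ^ 5 := Nat.le_self_pow (by norm_num) V
          have e2 : V ^ 5 ≤ (V ^ 5) ^ 2 := Nat.le_self_pow (by norm_num) _
          omega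
      _ = (k * V ^ 5) ^ 2 := by ring
      _ ≤ Z ^ 2 := Nat.pow_le_pow_left hk1 2
      _ ≤ w := hZ1
  have hlog : 100 * ((3 : ℕ) : ℝ) * Real.log (w + 1) ≤ (V : ℝ) := by
    have e1 : Real.log ((w : ℝ) + 1) ≤ 2 * Real.log a := by
      have e2 : Real.log ((w : ℝ) + 1) ≤ Real.log ((a : ℝ) ^ 2) := by
        apply Real.log_le_log (by positivity)
        exact_mod_cast hwa
      rw [Real.log_pow] at e2
      exact_mod_cast e2
    have hL0 : 0 ≤ Real.log a := Real.log_natCast_nonneg a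
    have e3 : (X : ℝ) ≤ V := by
      have : X ≤ V := by
        rw [hV]
        exact hXp1 58 (by norm_num)
      exact_mod_cast this
    push_cast
    linarith
  have hgap : ∀ l, 2 ≤ l → l ≤ 3 →
      (∀ j, 2 ≤ j → j ≤ 3 → ex nu (j - 1) - ex nu j ≤ ex nu (l - 1) - ex nu l) →
      w ≤ 2 * 3 ^ 2 * (ex nu (l - 1) - ex nu l) := by
    intro l _ _ hl
    have f2 := hl 2 le_rfl (by norm_num)
    have f3 := hl 3 (by norm_num) le_rfl
    rw [show 2 - 1 = 1 from rfl] at f2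
    rw [show 3 - 1 = 2 from rfl] at f3
    omega
  refine hA a b n 3 (X ^ 57) Z K w (2 * k) (w / k + 1) h y lam nu hlam hsum ?_ le_rfl (by omega)
    hwdef hZ1 hZ2 hK1 ?_ hZ57 ?_ ?_ hab ?_ ?_ ?_ (by omega) (by omega) (by omega) ?_ hnu1
    hnu2 hnu3 ?_
  · -- rows
    rcases hpos with h | h
    · exact Or.inl h
    · refine Or.inr (h.trans (hZ57.trans ?_))
      exact Nat.le_mul_of_pos_right _ (Nat.pow_pos (hXpos 57))
  · have := hXp1 57 (by norm_num)
    omega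
  · have h2 : a ^ 2 ≤ a ^ 3 := Nat.pow_le_pow_right ha (by norm_num)
    have h3 : 2 ^ K ≤ X ^ K := Nat.pow_le_pow_left (by omega) K
    have h4 : X ^ K ≤ (X ^ 57) ^ K := Nat.pow_le_pow_left (hXp1 57 (by norm_num)) K
    omega
  · -- 100 K (Z + 1) X1 ≤ a
    calc 100 * K * ((Z + 1) * X ^ 57) ≤ X * ((2 * Z) * X ^ 57) :=
          Nat.mul_le_mul (by omega) (Nat.mul_le_mul_right _ (by omega))
      _ = Z * (2 * X ^ 58) := by ring
      _ ≤ Z * X ^ 6000 := by
          apply Nat.mul_le_mul_left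
          have e2 := hXX 58 6000 (by norm_num)
          omega
      _ ≤ a := hZ12
  · -- (Z + 1) X1 ^ 3 ≤ a
    calc (Z + 1) * (X ^ 57) ^ 3 ≤ (2 * Z) * (X ^ 57) ^ 3 := Nat.mul_le_mul_right _ (by omega)
      _ = Z * (2 * X ^ 171) := by ring
      _ ≤ Z * X ^ 6000 := by
          apply Nat.mul_le_mul_left
          have e2 := hXX 171 6000 (by norm_num)
          omega
      _ ≤ a := hZ12
  · -- Z X1 ^ 2 + 2 ≤ a
    have e1 : Z * (X ^ 57) ^ 2 + 2 ≤ Z * X ^ 6000 := by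
      have e2 := hXX 114 6000 (by norm_num)
      have e3 := hXpos 114
      have e4 : X ^ 114 + 2 ≤ X ^ 6000 := by omega
      calc Z * (X ^ 57) ^ 2 + 2 ≤ Z * X ^ 114 + Z * 2 := by
            rw [← pow_mul]
            exact Nat.add_le_add_left (by omega) _
        _ = Z * (X ^ 114 + 2) := by ring
        _ ≤ Z * X ^ 6000 := Nat.mul_le_mul_left _ e4
    exact e1.trans hZ12
  · -- a0 (a0 + 2) ≤ w
    have e1 : 2 * k * (2 * k + 2) = 4 * k ^ 2 + 4 * k := by ring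
    have e2 : k ≤ k ^ 2 := Nat.le_self_pow (by norm_num) k
    omega
  · -- a + (Z + 1) X ≤ y + 3 h
    rw [← hS]
    omega
  · intro hnJ
    have hJ2 : 2 * (Z * (X ^ 57) ^ 2) ≤ Z * V ^ 2 := by
      calc 2 * (Z * (X ^ 57) ^ 2) = Z * (2 * X ^ 114) := by
            rw [← pow_mul]
            ring
        _ ≤ Z * X ^ 116 := by
            apply Nat.mul_le_mul_left
            have e2 := hXX 114 116 (by norm_num)
            omega
        _ = Z * V ^ 2 := by rw [hV, ← pow_mul]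
    have hJpos : 1 ≤ Z * (X ^ 57) ^ 2 := Nat.mul_pos hZpos (Nat.pow_pos (hXpos 57))
    have htl : V ^ 6 * (3 * ex nu 3 + ∑ i, low 3 nu i) ≤ w := by
      rw [sum_low, hn3, hnd3]
      calc V ^ 6 * (3 * ex lam 3 + dn lam 3) ≤ V ^ 6 * (4 * dn lam 3) :=
            Nat.mul_le_mul_left _ (by omega)
        _ = (4 * X ^ 348) * dn lam 3 := by
            rw [hV, ← pow_mul]
            ring
        _ ≤ X ^ 2550 * dn lam 3 := by
            apply Nat.mul_le_mul_right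
            have e2 := hXX 348 2550 (by norm_num)
            omega
        _ ≤ w := by omega
    have hlb := low_bound hC hR' (n := n) (J := Z * V ^ 2) (R := 3) (X := V) (Z := Z) (w := w) nu
      hnu le_rfl (by omega) (by omega) hZ1 hwZ le_rfl (by omega) hV20 (2 * ex nu 2) (by omega)
      le_rfl (by omega) htl hlog (by rw [hnusum, hk]) hgap
    rw [← hk] at hlb
    refine le_trans ?_ hlb
    rw [mul_assoc]
    apply Nat.mul_le_mul_left
    apply Nat.mul_le_mul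
    · apply Nat.pow_le_pow_right (by omega)
      calc (3 + 1) * (Z * (X ^ 57) ^ 2) ≤ (3 * 2) * (Z * (X ^ 57) ^ 2) :=
            Nat.mul_le_mul_right _ (by omega)
        _ = 3 * (2 * (Z * (X ^ 57) ^ 2)) := by ring
        _ ≤ 3 * (Z * V ^ 2) := Nat.mul_le_mul_left _ hJ2
    · exact gt_letters (low_anti hnu 3) (by omega)

end Vale.Agent.P181.SV.H351
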