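import Vale.Agent.P181.SV.H351.Core
import Vale.Agent.P181.DG9.H924.E.Main
import Vale.Agent.P181.PL10.Lin

set_option autoImplicit false

/-!
# P181, SV, V3: two long rows and a light tail
-/

namespace Vale.Agent.P181.SV.H351

open Vale.Agent.P181.T4 (ex low)
open Vale.Agent.P181.H280 (plethMult)
open Vale.Agent.P181.PL
open Vale.Agent.P181.SZ (LBC LBR)

/-- **(V3)** -/
theorem sliv (hA : AsmN) (hC : LBC) (hR' : LBR) : SlivT := by
  obtain ⟨K, hK⟩ : ∃ K : ℝ, K = 2 * 10 ^ 12 := ⟨_, rfl⟩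
  have hK0 : 0 < K := by
    rw [hK]
    norm_num
  obtain ⟨A0, hA0⟩ := PL10.ev K hK0 7 20000
  have hKq : 0 < K ^ 2550 := pow_pos hK0 _
  refine ⟨K ^ 2550 + K + 3 * ((A0 : ℝ) + 2), 7 * 2550 + 7, by positivity, ?_⟩
  intro a b hab n lam hlam0 hsum0 h2 h94 hD3
  have hlog : 0 ≤ Real.log a := Real.log_natCast_nonneg a
  have hL1 : (1 : ℝ) ≤ 1 + Real.log a := by linarith
  have hLq : (1 : ℝ) ≤ (1 + Real.log a) ^ (7 * 2550) := one_le_pow₀ hL1
  have hLm : (1 : ℝ) ≤ (1 + Real.log a) ^ 7 := one_le_pow₀ hL1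
  have hA2 : (0 : ℝ) ≤ 3 * ((A0 : ℝ) + 2) := by positivity
  have hdw : (0 : ℝ) ≤ (dn lam 3 : ℝ) := Nat.cast_nonneg _
  rw [pow_add] at hab hD3
  obtain ⟨D, hD⟩ : ∃ D : ℝ, D = (K ^ 2550 + K + 3 * ((A0 : ℝ) + 2)) *
      ((1 + Real.log a) ^ (7 * 2550) * (1 + Real.log a) ^ 7) := ⟨_, rfl⟩
  rw [← hD] at hab hD3
  have hP : (0 : ℝ) < K ^ 2550 + K + 3 * ((A0 : ℝ) + 2) := by positivity
  -- the constant dominates the constants
  have hc2 : K ^ 2550 * (1 + Real.log a) ^ (7 * 2550) ≤ D := by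
    rw [hD]
    apply mul_le_mul _ (le_mul_of_one_le_right (by positivity) hLm) (by positivity) hP.le
    linarith
  have hc3 : K * (1 + Real.log a) ^ 7 ≤ D := by
    rw [hD]
    apply mul_le_mul _ (le_mul_of_one_le_left (by positivity) hLq) (by positivity) hP.le
    linarith
  have hc4 : 3 * ((A0 : ℝ) + 2) ≤ D := by
    rw [hD]
    refine le_trans ?_ (le_mul_of_one_le_right hP.le (one_le_mul_of_one_le_of_one_le hLq hLm))
    linarith
  clear hD
  have hab' : a ≤ b := by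
    have h1 : (a : ℝ) ≤ b := by linarith
    exact_mod_cast h1
  -- the rows
  have e1 := dn_succ lam 1
  rw [show 1 + 1 = 2 from rfl] at e1
  have e2 := dn_succ lam 2
  rw [show 2 + 1 = 3 from rfl] at e2
  rcases lt_or_ge a (A0 + 2) with ha | ha
  · -- small `a`
    rcases le_or_gt (ex lam 1) a with h1 | h1
    · exact DG.E924.sec hab' lam hlam0 h1
    have hk : 2 ≤ n := by
      by_contra hcon
      rw [exge lam (by omega)] at h1
      omega
    obtain ⟨j, rfl⟩ : ∃ j, n = j + 2 := ⟨n - 2, by omega⟩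
    apply DG.E924.few_two lam (by omega)
    have h3 : dn lam 2 ≤ 3 * (A0 + 2) := by omega
    have h4 : (dn lam 2 : ℝ) ≤ 3 * ((A0 : ℝ) + 2) := by exact_mod_cast h3
    have h5 : ((dn lam 2 + a : ℕ) : ℝ) ≤ (b : ℝ) := by
      push_cast
      linarith
    have h6 : dn lam 2 + a ≤ b := Nat.cast_le.1 h5
    omega
  obtain ⟨X, hX1, hX2⟩ := PL10.exists_X a 7
  rw [← hK] at hX2
  have hX0 : (0 : ℝ) ≤ X := Nat.cast_nonneg X
  have hXa : X ^ 20000 ≤ a := by
    have h1 : (X : ℝ) ^ 20000 ≤ (K * (1 + Real.log a) ^ 7) ^ 20000 :=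
      pow_le_pow_left₀ (Nat.cast_nonneg _) hX2 _
    have h2 := h1.trans (hA0 a (by omega))
    rw [← Nat.cast_pow] at h2
    exact Nat.cast_le.1 h2
  have hXD : X ^ 2550 * dn lam 3 ≤ a := by
    have h3 := PL10.num_q 2550 7 hdw hX0 hX2
      ((mul_le_mul_of_nonneg_right hc2 hdw).trans hD3)
    rw [← Nat.cast_pow, ← Nat.cast_mul, mul_comm] at h3
    exact Nat.cast_le.1 h3
  have haX : a + X ≤ b := by
    have h3 : ((a + X : ℕ) : ℝ) ≤ (b : ℝ) := by
      push_cast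
      linarith
    exact Nat.cast_le.1 h3
  refine PL10.trimQ lam fun k mu hanti hsum hpos hka hdn => ?_
  have hex : ∀ j, ex mu j = ex lam j := by
    intro j
    have f1 := dn_succ lam j
    have f2 := dn_succ mu j
    rw [hdn j, hdn (j + 1)] at f2
    omega
  rcases Nat.lt_or_ge k 5 with hk | hk
  · obtain ⟨nu, hnu, hnusum, hnuex, hnudn, hnup⟩ := PL81.pad_rows (a := 5) mu hanti hk.le
    rw [← hnup a b, ← hnup b a]
    refine sliv_core hA hC hR' (X := X) hnu (by rw [hnusum, hsum]) (Or.inr ?_) le_rfl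
      (by rw [hnuex, hex]; exact h2) (by rw [hnudn, hdn]; exact h94)
      (by rw [hnudn, hdn]; exact hXD) hXa hX1 haX
    have h12 : 10 ^ 12 ≤ X := (PL10.X_ge hX1).2
    have h57 : X ≤ X ^ 57 := Nat.le_self_pow (by norm_num) X
    omega
  · exact sliv_core hA hC hR' (X := X) hanti hsum (Or.inl hpos) hk
      (by rw [hex]; exact h2) (by rw [hdn]; exact h94) (by rw [hdn]; exact hXD) hXa hX1 haX

end Vale.Agent.P181.SV.H351
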